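import Vale.Agent.P363.MathlibUsed

namespace Vale.Agent.P363.Stmt

open MeasureTheory
open scoped ContDiff ENNReal

noncomputable section

/-- Physical space. -/
abbrev R3 : Type := EuclideanSpace ℝ (Fin 3)

/-- Positions of `N` electrons. -/
abbrev Conf (N : ℕ) : Type := Fin N → R3

/-- The standard measure space `ℝ³` (Lebesgue measure, Borel sets). -/
@[reducible] def leb3 : MeasureSpace R3 := inferInstance

/-- The standard product measure space `(ℝ³)^N`. -/
@[reducible] def lebN (N : ℕ) : MeasureSpace (Conf N) :=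
  @MeasureSpace.pi (Fin N) _ (fun _ => R3) (fun _ => leb3)

/-- Lebesgue integral of a real function. -/
def intR {N : ℕ} (f : Conf N → ℝ) : ℝ := letI := lebN N; ∫ x, f x

/-- Lebesgue integral of a complex function. -/
def intC {N : ℕ} (f : Conf N → ℂ) : ℂ := letI := lebN N; ∫ x, f x

/-- Square integrability. -/
def L2 {N : ℕ} (f : Conf N → ℂ) : Prop := letI := lebN N; MemLp f 2 volume

/-- Almost everywhere. -/
def AEConf {N : ℕ} (P : Conf N → Prop) : Prop := letI := lebN N; ∀ᵐ x, P x

/-- Almost everywhere in `ℝ³`. -/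
def AE3 (P : R3 → Prop) : Prop := letI := leb3; ∀ᵐ r, P r

/-- Smooth compactly supported test functions. -/
def IsTest {N : ℕ} (φ : Conf N → ℝ) : Prop := ContDiff ℝ ∞ φ ∧ HasCompactSupport φ

/-- Derivative of `φ` at `x` in the `k`-th coordinate of the `i`-th electron. -/
def pd {N : ℕ} (i : Fin N) (k : Fin 3) (φ : Conf N → ℝ) (x : Conf N) : ℝ :=
  deriv (fun t : ℝ => φ (Function.update x i (x i + t • EuclideanSpace.single k 1))) 0

/-- `g` is the weak (distributional) partial derivative of `f` in the `k`-th coordinate of the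
`i`-th electron. -/
def IsWeakDeriv {N : ℕ} (i : Fin N) (k : Fin 3) (f g : Conf N → ℂ) : Prop :=
  ∀ φ : Conf N → ℝ, IsTest φ → intC (fun x => (pd i k φ x : ℂ) * f x) = - intC (fun x => (φ x : ℂ) * g x)

/-- A vector of finite kinetic energy in the `N`-electron space, i.e. in the antisymmetric part of
`L²((ℝ³ × spin)^N)`: for each spin configuration a complex `L²` amplitude on `(ℝ³)^N` whose weak
partial derivatives are in `L²`; antisymmetric under simultaneous permutation of the positions
and the spins. -/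
structure ElectronState (N : ℕ) where
  amp : (Fin N → Fin 2) → Conf N → ℂ
  grad : (Fin N → Fin 2) → Fin N → Fin 3 → Conf N → ℂ
  amp_memLp : ∀ s, L2 (amp s)
  grad_memLp : ∀ s i k, L2 (grad s i k)
  grad_weak : ∀ s i k, IsWeakDeriv i k (amp s) (grad s i k)
  antisymm : ∀ (σ : Equiv.Perm (Fin N)) (s : Fin N → Fin 2),
    AEConf fun x => amp (s ∘ σ) (x ∘ σ) = ((Equiv.Perm.sign σ : ℤ) : ℂ) * amp s x

/-- Squared norm of a state. -/
def normSq {N : ℕ} (Ψ : ElectronState N) : ℝ :=
  ∑ s, intR fun x => ‖Ψ.amp s x‖ ^ 2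

/-- Quadratic form of the operator `-(1/2) Δ + w` on the `N`-electron space,
`w` acting by multiplication. -/
def energy {N : ℕ} (w : Conf N → ℝ) (Ψ : ElectronState N) : ℝ :=
  (1 / 2) * (∑ s, ∑ i, ∑ k, intR fun x => ‖Ψ.grad s i k x‖ ^ 2) +
    ∑ s, intR fun x => w x * ‖Ψ.amp s x‖ ^ 2

/-- `Ψ` is a normalized ground state of the operator with potential `w`: it minimizes the
quadratic form among all normalized states of finite kinetic energy. -/
def IsGroundState {N : ℕ} (w : Conf N → ℝ) (Ψ : ElectronState N) : Prop :=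
  normSq Ψ = 1 ∧ ∀ Φ : ElectronState N, normSq Φ = 1 → energy w Ψ ≤ energy w Φ

/-- Spin-summed one-body density of a state of `n + 1` electrons, with integral `n + 1`. -/
def density {n : ℕ} (Ψ : ElectronState (n + 1)) (r : R3) : ℝ :=
  (n + 1 : ℝ) * ∑ s, intR fun y : Conf n => ‖Ψ.amp s (Fin.cons r y)‖ ^ 2

/-- Potential of a molecule with nuclei of charges `Z j` at the points `R j`: attraction by the
nuclei and mutual repulsion of the electrons. -/
def coulombPotential {N M : ℕ} (Z : Fin M → ℕ) (R : Fin M → R3) (x : Conf N) : ℝ :=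
  (∑ i, ∑ j, -((Z j : ℝ) / ‖x i - R j‖)) + ∑ i, ∑ k ∈ Finset.Ioi i, 1 / ‖x i - x k‖

/-- Potential of noninteracting electrons in the one-body potential `v`. -/
def sumPotential {N : ℕ} (v : R3 → ℝ) (x : Conf N) : ℝ := ∑ i, v (x i)

/-- The space `L^p(ℝ³)` of real functions. -/
def LpR3 (p : ℝ≥0∞) (f : R3 → ℝ) : Prop := letI := leb3; MemLp f p volume

/-- The class `L^{3/2} + L^∞` of real potentials on `ℝ³`. -/
def MemV (v : R3 → ℝ) : Prop := ∃ a b : R3 → ℝ, LpR3 (3 / 2) a ∧ LpR3 ⊤ b ∧ v = a + b

/-- `ρ` is a noninteracting ensemble representable density of `n + 1` electrons: it is (almost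
everywhere) the density of a ground-state ensemble `∑ₖ pₖ |Φₖ⟩⟨Φₖ|` of the noninteracting
Hamiltonian with some potential `v` in `L^{3/2} + L^∞`. -/
def NonintEnsembleRepresentable (n : ℕ) (ρ : R3 → ℝ) : Prop :=
  ∃ v : R3 → ℝ, MemV v ∧
    ∃ (p : ℕ → ℝ) (Φ : ℕ → ElectronState (n + 1)),
      (∀ k, 0 ≤ p k) ∧ HasSum p 1 ∧ (∀ k, IsGroundState (sumPotential v) (Φ k)) ∧
      AE3 fun r => HasSum (fun k => p k * density (Φ k) r) (ρ r)

/-- The assertion of the question for `n + 1` electrons: for every molecule, the density of every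
normalized ground state of the Coulomb Hamiltonian is noninteracting ensemble representable. -/
def CoulombDensitiesRepresentable (n : ℕ) : Prop :=
  ∀ (M : ℕ), 1 ≤ M → ∀ (Z : Fin M → ℕ), (∀ j, 1 ≤ Z j) →
    ∀ (R : Fin M → R3), Function.Injective R →
      ∀ Ψ : ElectronState (n + 1), IsGroundState (coulombPotential Z R) Ψ →
        NonintEnsembleRepresentable n (density Ψ)

end

end Vale.Agent.P363.Stmt
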