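import Vale.Agent.P363.Stmt

namespace Vale.Agent.P363.Stmt

noncomputable section

/-- `ρ` is the density of one pure ground state of `n + 1` noninteracting electrons in a potential
`v` of the class `V` whose only singularities are bounded by multiples of `1 / |r - R_j|`. -/
def PureRepresentable (n : ℕ) {M : ℕ} (R : Fin M → R3) (ρ : R3 → ℝ) : Prop :=
  ∃ v : R3 → ℝ, MemV v ∧ (∃ C : ℝ, AE3 fun r => |v r| ≤ C * (1 + ∑ j, 1 / ‖r - R j‖)) ∧
    ∃ Φ : ElectronState (n + 1), IsGroundState (sumPotential v) Φ ∧
      AE3 fun r => density Φ r = ρ r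

/-- Pure-state form of the question for `n + 1` electrons, with a bound on the potential. -/
def CoulombDensitiesPureRepresentable (n : ℕ) : Prop :=
  ∀ (M : ℕ), 1 ≤ M → ∀ (Z : Fin M → ℕ), (∀ j, 1 ≤ Z j) →
    ∀ (R : Fin M → R3), Function.Injective R →
      ∀ Ψ : ElectronState (n + 1), IsGroundState (coulombPotential Z R) Ψ →
        PureRepresentable n R (density Ψ)

end

end Vale.Agent.P363.Stmt
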